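import Vale.Agent.P011UC.Defs
import Mathlib.RingTheory.Smooth.Flat
import Mathlib.RingTheory.Smooth.StandardSmoothCotangent
import Mathlib.RingTheory.Spectrum.Prime.Chevalley
import Mathlib.RingTheory.Unramified.Field
import Mathlib.Algebra.MvPolynomial.Funext

/-!
Polynomial maps with an invertible Jacobian matrix are dominant and separable.
-/

set_option autoImplicit false
set_option linter.all false

namespace Vale.Agent.P011UJ

open MvPolynomial Matrix

variable {K : Type} [Field K] {ι : Type} [Fintype ι] [DecidableEq ι]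

theorem der_aeval {L N : Type} [CommRing L] [Algebra K L] [AddCommGroup N] [Module L N]
    [Module K N] (D : Derivation K L N) (x : ι → L) (p : MvPolynomial ι K) :
    D (aeval x p) = ∑ j, aeval x (pderiv j p) • D (x j) := by
  induction p using MvPolynomial.induction_on with
  | C a => simp
  | add p q hp hq => simp [hp, hq, add_smul, Finset.sum_add_distrib]
  | mul_X p i hp =>
    simp only [map_mul, aeval_X, Derivation.leibniz, hp, pderiv_X, smul_eq_mul, map_add, add_smul,
      Finset.sum_add_distrib, Finset.smul_sum, mul_smul]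
    simp [Pi.single_apply, apply_ite (aeval x)]

theorem exists_pt [IsSepClosed K] {L : Type} [Field L] [Algebra K L] (Φ : ι → MvPolynomial ι K)
    (f : MvPolynomial ι K) (w : ι ⊕ Unit → L) (hw : Function.Surjective (aeval w : _ →ₐ[K] L))
    (y : ι → K) (h1 : ∀ i, aeval (w ∘ Sum.inl) (Φ i) = algebraMap K L (y i))
    (h2 : w (Sum.inr ()) * aeval (w ∘ Sum.inl) ((of fun i j => pderiv j (Φ i)).det * f) = 1) :
    ∃ x, (∀ i, eval x (Φ i) = y i) ∧ eval x f ≠ 0 := by
  let D := KaehlerDifferential.D K L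
  rw [map_mul] at h2
  have h3 : ∀ j, D (w (Sum.inl j)) = 0 := fun j => by
    let M := (aeval (w ∘ Sum.inl) : _ →ₐ[K] L).mapMatrix (of fun i j => pderiv j (Φ i))
    have hM : IsUnit M.det := by
      rw [← AlgHom.map_det]
      exact isUnit_of_mul_isUnit_left (isUnit_of_mul_isUnit_right (h2 ▸ isUnit_one))
    have h4 : ∀ i, ∑ j, M i j • D (w (Sum.inl j)) = 0 := fun i =>
      (der_aeval D _ (Φ i)).symm.trans (by rw [h1, D.map_algebraMap])
    have : ∑ i, M⁻¹ j i • ∑ l, M i l • D (w (Sum.inl l)) = D (w (Sum.inl j)) := by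
      simp only [Finset.smul_sum, smul_smul]
      rw [Finset.sum_comm]
      simp only [← Finset.sum_smul, ← mul_apply, nonsing_inv_mul M hM]
      simp [one_apply]
    simpa [h4] using this.symm
  have h4 : ∀ u, D (w u) = 0 := by
    rintro (j | ⟨⟩)
    · exact h3 j
    · have := congrArg D h2
      rw [← map_mul, D.leibniz, der_aeval, D.map_one_eq_zero] at this
      simp only [Function.comp, h3, smul_zero, Finset.sum_const_zero, add_zero] at this
      exact (smul_eq_zero.1 this).resolve_left fun e => by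
        rw [← map_mul, show aeval (w ∘ Sum.inl) _ = 0 from e, mul_zero] at h2
        exact zero_ne_one h2
  have : Algebra.FiniteType K L := .of_surjective _ hw
  have : Algebra.FormallyUnramified K L := ⟨subsingleton_of_forall_eq 0 fun z => by
    refine (Submodule.span_le (p := ⊥)).2 ?_ ((KaehlerDifferential.span_range_derivation K L).ge
      (Submodule.mem_top (x := z)))
    rintro _ ⟨l, rfl⟩
    obtain ⟨p, rfl⟩ := hw l
    exact (der_aeval D w p).trans (by simp [h4])⟩
  have := Algebra.FormallyUnramified.isSeparable K L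
  choose x hx using fun i => IsSepClosed.algebraMap_surjective K L (w (Sum.inl i))
  have h5 : ∀ p : MvPolynomial ι K, aeval (w ∘ Sum.inl) p = algebraMap K L (eval x p) := fun p => by
    rw [show w ∘ Sum.inl = algebraMap K L ∘ x from funext fun i => (hx i).symm,
      aeval_algebraMap_apply]
    rfl
  refine ⟨x, fun i => (algebraMap K L).injective ((h5 _).symm.trans (h1 i)), fun e => ?_⟩
  rw [h5 f, e] at h2
  simp at h2

theorem open_range {R S : Type} [CommRing R] [CommRing S] [Algebra R S]
    (h : Algebra.IsStandardSmooth R S) :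
    IsOpen (Set.range (PrimeSpectrum.comap (algebraMap R S))) :=
  PrimeSpectrum.isOpenMap_comap_of_hasGoingDown_of_finitePresentation.isOpen_range

theorem inf_of_sep (K : Type) [Field K] [IsSepClosed K] : Infinite K := by
  refine not_finite_iff_infinite.1 fun h => ?_
  have := IsSepClosed.isAlgClosed_of_perfectField K
  exact not_finite K

theorem eta : P011UC.ETA := by
  intro K _ _ ι _ _ Φ f hf hJ
  have := inf_of_sep K
  let g := (of fun i j => pderiv j (Φ i)).det * f
  let e : (MvPolynomial ι K) →ₐ[K] MvPolynomial (ι ⊕ Unit) (MvPolynomial ι K) := aeval fun i => X (Sum.inl i)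
  let v : ι ⊕ Unit → MvPolynomial (ι ⊕ Unit) (MvPolynomial ι K) :=
    Sum.elim (fun i => e (Φ i) - C (X i)) fun _ => X (Sum.inr ()) * e g - 1
  let I := Ideal.span (Set.range v)
  have hv : ∀ u, Ideal.Quotient.mk I (v u) = 0 := fun u =>
    Ideal.Quotient.eq_zero_iff_mem.2 (Ideal.subset_span ⟨u, rfl⟩)
  have d1 : ∀ u p, pderiv u (e p) = ∑ j, e (pderiv j p) • pderiv u (X (Sum.inl j) :
      MvPolynomial (ι ⊕ Unit) (MvPolynomial ι K)) := fun u p =>
    der_aeval ((pderiv u : Derivation (MvPolynomial ι K) _ (MvPolynomial (ι ⊕ Unit) (MvPolynomial ι K))).restrictScalars K) _ p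
  have hP : IsUnit (Algebra.PreSubmersivePresentation.naive (v := v) id
      Function.injective_id).jacobian := by
    rw [Algebra.PreSubmersivePresentation.jacobian_eq_jacobiMatrix_det]
    have : (Algebra.PreSubmersivePresentation.naive (v := v) id Function.injective_id).jacobiMatrix =
        fromBlocks (e.mapMatrix (of fun i j => pderiv j (Φ i)))ᵀ
          (of fun i _ => pderiv (Sum.inl i) (v (Sum.inr ()))) 0 (of fun _ _ => e g) := by
      ext1 a b
      rw [Algebra.PreSubmersivePresentation.jacobiMatrix_naive]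
      rcases a with a | ⟨⟩ <;> rcases b with b | ⟨⟩ <;> simp [v, d1, Pi.single_apply]
    have h1 : Ideal.Quotient.mk I (X (Sum.inr ()) * e g) = 1 := by
      rw [← map_one (Ideal.Quotient.mk I), ← sub_eq_zero, ← map_sub]
      exact hv (Sum.inr ())
    rw [map_mul] at h1
    have h2 := isUnit_of_mul_isUnit_right (h1 ▸ isUnit_one)
    have h3 := h2
    rw [map_mul, map_mul] at h3
    rw [this, det_fromBlocks_zero₂₁, det_transpose, ← AlgHom.map_det, det_unique (n := Unit)]
    show IsUnit (Ideal.Quotient.mk I (e _ * e g))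
    rw [map_mul]
    exact (isUnit_of_mul_isUnit_left h3).mul h2
  have ho := open_range
    (⟨_, hP⟩ : Algebra.SubmersivePresentation (MvPolynomial ι K) (_ ⧸ I) _ _).isStandardSmooth
  obtain ⟨x₀, h0⟩ : ∃ x₀, eval x₀ g ≠ 0 := by
    by_contra c
    push Not at c
    exact mul_ne_zero hJ hf (MvPolynomial.funext c)
  have : Nontrivial (_ ⧸ I) := by
    let θ : MvPolynomial (ι ⊕ Unit) (MvPolynomial ι K) →+* K :=
      eval₂Hom (eval fun i => eval x₀ (Φ i)) (Sum.elim x₀ fun _ => (eval x₀ g)⁻¹)
    have h1 : ∀ p, θ (e p) = eval x₀ p := fun p => DFunLike.congr_fun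
      (show θ.comp (e : (MvPolynomial ι K) →+* _) = eval x₀ from ringHom_ext (by simp [θ, e]) (by simp [θ, e])) p
    refine (Ideal.Quotient.lift I θ fun a ha => ?_).domain_nontrivial
    refine Ideal.span_le (I := RingHom.ker θ).2 ?_ ha
    rintro _ ⟨i | ⟨⟩, rfl⟩
    · show θ (_ - _) = 0
      rw [map_sub, h1]
      simp [θ]
    · show θ (_ - _) = 0
      rw [map_sub, map_mul, h1]
      simp [θ, h0]
  obtain ⟨_, ⟨_, ⟨q, rfl⟩, rfl⟩, h1, h2⟩ := PrimeSpectrum.isBasis_basic_opens.exists_subset_of_mem_open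
    (Set.mem_range_self (Classical.arbitrary (PrimeSpectrum (_ ⧸ I)))) ho
  refine ⟨q, fun c => h1 (c ▸ zero_mem _), fun y hy => ?_⟩
  obtain ⟨P, hP⟩ := h2 (show ⟨_, RingHom.ker_isPrime (eval y)⟩ ∈ _ from hy)
  obtain ⟨M, hM, h3⟩ := Ideal.exists_le_maximal P.1 P.2.ne_top
  letI := Ideal.Quotient.field (R := _ ⧸ I) M
  let θ := (Ideal.Quotient.mkₐ K M).comp (Ideal.Quotient.mkₐ K I)
  have h4 : ∀ i, θ (C (X i)) = algebraMap K _ (y i) := fun i => by
    rw [← θ.commutes, ← sub_eq_zero, ← map_sub]
    refine Ideal.Quotient.eq_zero_iff_mem.2 (h3 ?_)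
    have : (X i - C (y i) : (MvPolynomial ι K)) ∈ (PrimeSpectrum.comap (algebraMap (MvPolynomial ι K) (_ ⧸ I)) P).1 := by
      rw [hP]
      simp [RingHom.mem_ker]
    rw [PrimeSpectrum.comap_asIdeal, Ideal.mem_comap, map_sub] at this
    exact this
  have h5 : ∀ p, θ p = aeval (θ ∘ X) (map (eval y) p) := fun p => DFunLike.congr_fun
    (show (θ : _ →+* _) = (aeval (θ ∘ X) : _ →ₐ[K] _).toRingHom.comp (map (eval y)) from
      ringHom_ext' (ringHom_ext (fun r => by simpa using θ.commutes r) (by simpa using h4))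
        (by simp)) p
  have h6 : ∀ p, aeval ((θ ∘ X) ∘ Sum.inl) p = θ (e p) := fun p => DFunLike.congr_fun
    (show aeval _ = θ.comp e from algHom_ext (by simp [e])) p
  have h7 : ∀ u, θ (v u) = 0 := fun u => (congrArg (Ideal.Quotient.mk M) (hv u)).trans (map_zero _)
  refine exists_pt Φ f (θ ∘ X) (fun l => ?_) y (fun i => ?_) ?_
  · obtain ⟨p, rfl⟩ := (Ideal.Quotient.mk_surjective.comp Ideal.Quotient.mk_surjective) l
    exact ⟨_, (h5 p).symm⟩
  · rw [h6, ← h4, ← sub_eq_zero, ← map_sub]
    exact h7 (Sum.inl i)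
  · rw [h6, Function.comp, ← map_mul, ← sub_eq_zero, ← map_one θ, ← map_sub]
    exact h7 (Sum.inr ())

end Vale.Agent.P011UJ
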