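import Vale.Agent.P011UJ.Mk
import Vale.Agent.P011UA.A0
import Vale.Agent.P011LA.A1
import Vale.Agent.P011U.IF

/-!
Recognition of groups generated by minuscule root elements; the special linear group.
-/

set_option autoImplicit false
set_option linter.all false

namespace Vale.Agent.P011UJ

open Matrix Vale.Agent.P011L Vale.Agent.P183CH Vale.Agent.P183CH.Chev Vale.Agent.P011U
  Vale.Agent.P011UH

variable {K : Type} [Field K]

/-- change of the index set -/
def rx {I J : Type} [Fintype I] [DecidableEq I] [Fintype J] [DecidableEq J] (κ : J ≃ I) :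
    GL I K ≃* GL J K := Units.mapEquiv (reindexAlgEquiv K K κ.symm).toMulEquiv

theorem rx_val {I J : Type} [Fintype I] [DecidableEq I] [Fintype J] [DecidableEq J] (κ : J ≃ I)
    (g : GL I K) : (rx κ g).1 = g.1.submatrix κ κ := rfl

/-- a homomorphism which maps the simple root elements to integral one-parameter groups commutes
with the automorphisms of the field -/
theorem gal_of {D : Chev} {J : Type} [Fintype J] [DecidableEq J] (ρ : D.grp K →* GL J K)
    (σ : K →+* K) (h : ∀ i t, (ρ ((GG D K).x (D.α i) (σ t))).1 = (ρ ((GG D K).x (D.α i) t)).1.map σ ∧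
      (ρ ((GG D K).x (-D.α i) (σ t))).1 = (ρ ((GG D K).x (-D.α i) t)).1.map σ)
    (g g' : D.grp K) (e : g'.1.1 = g.1.1.map σ) : (ρ g').1 = (ρ g).1.map σ := by
  obtain rfl : g' = fm D σ g := Subtype.ext (Units.ext e)
  have : ρ.comp (fm D σ) = (gm σ).comp ρ := MonoidHom.eq_of_eqOn_dense GG_ok.gen (by
    rintro _ ⟨i, t, rfl | rfl⟩
    · exact Units.ext ((congrArg (fun x => (ρ x).1) (fm_x σ _ t)).trans (h i t).1)
    · exact Units.ext ((congrArg (fun x => (ρ x).1) (fm_x σ _ t)).trans (h i t).2))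
  exact congrArg Units.val (DFunLike.congr_fun this g)

theorem rec_core {D : Chev} {I J : Type} [Fintype I] [DecidableEq I] [Fintype J] [DecidableEq J]
    {A : Matrix I I ℤ} {e f : I → Matrix J J ℤ} {μ : I → J → ℤ} (ε : Fin D.r ≃ I)
    (hA : ∀ i j, A (ε i) (ε j) = D.A i j) (h : Min A e f μ)
    (h2 : ∀ (D' : Chev) (ε : Fin D.r ≃ Fin D'.r), SC D' → (∀ i j, D'.A (ε i) (ε j) = D.A i j) →
      ∃ ψ : D.grp K ≃* D'.grp K, Pin ε ψ ∧ Pol ψ ∧ Pol ψ.symm) :
    ∃ ψ : D.grp K ≃* gen K e f, Iso ψ ∧ ∀ (g : D.grp K) i t,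
      (g.1.1 = D.x i t → (ψ g).1.1 = 1 + t • (e (ε i)).map (Int.cast : ℤ → K)) ∧
      (g.1.1 = D.y i t → (ψ g).1.1 = 1 + t • (f (ε i)).map (Int.cast : ℤ → K)) := by
  let η₀ := (Fintype.equivFin J).symm
  obtain ⟨D', ε', η, h3, h4, h5⟩ := mk D _ (fun i => (e (ε i)).submatrix η₀ η₀)
    (fun i => (f (ε i)).submatrix η₀ η₀) (fun i a => μ (ε i) (η₀ a))
    { ee := fun i => by rw [submatrix_mul_equiv, h.ee]; rfl
      ff := fun i => by rw [submatrix_mul_equiv, h.ff]; rfl
      ef := fun i => by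
        rw [submatrix_mul_equiv, submatrix_mul_equiv]
        exact (congrArg (submatrix · η₀ η₀) (h.ef (ε i))).trans (submatrix_diagonal_equiv _ _)
      ef' := fun i j c => by
        rw [submatrix_mul_equiv, submatrix_mul_equiv, h.ef' _ _ (ε.injective.ne c)]
      he := fun i a b c j => hA i j ▸ h.he _ _ _ c _
      hf := fun i a b c j => hA i j ▸ h.hf _ _ _ c _
      sc := by
        have := congrArg (Submodule.map (LinearEquiv.funCongrLeft ℤ ℤ ε).toLinearMap) h.sc
        rw [Submodule.map_span, Submodule.map_top, LinearEquiv.range, ← Set.range_comp,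
          ← η₀.surjective.range_comp] at this
        exact this }
  obtain ⟨ψ, h6, h7, h8⟩ := h2 D' ε' h3 h4
  let κ : J ≃ Fin D'.n := η₀.symm.trans η
  have a : ∀ (M : Matrix J J ℤ) (t : K), submatrix (1 + t • (M.submatrix η₀ η₀).map (Int.cast : ℤ → K) :
      Matrix _ _ K) η₀.symm η₀.symm = 1 + t • M.map (Int.cast : ℤ → K) := fun M t => by
    ext a b
    simp [one_apply]
  have hx : ∀ i (t : K), (D'.x (ε' i) t).submatrix κ κ = 1 + t • (e (ε i)).map Int.cast :=
    fun i t => (congrArg (submatrix · η₀.symm η₀.symm) (h5 K i t).1).trans (a _ t)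
  have hy : ∀ i (t : K), (D'.y (ε' i) t).submatrix κ κ = 1 + t • (f (ε i)).map Int.cast :=
    fun i t => (congrArg (submatrix · η₀.symm η₀.symm) (h5 K i t).2).trans (a _ t)
  have hm : (D'.grp K).map (rx (K := K) κ : GL _ K →* GL J K) = gen K e f := by
    rw [Chev.grp, MonoidHom.map_closure]
    refine congrArg _ (Set.ext fun g => ⟨?_, ?_⟩)
    · rintro ⟨g, ⟨i, t, c⟩, rfl⟩
      obtain ⟨i, rfl⟩ := ε'.surjective i
      exact ⟨ε i, t, c.imp (fun c => (congrArg (submatrix · κ κ) c).trans (hx i t))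
        fun c => (congrArg (submatrix · κ κ) c).trans (hy i t)⟩
    · rintro ⟨i, t, c⟩
      obtain ⟨i, rfl⟩ := ε.surjective i
      rcases c with c | c
      · exact ⟨(dp_e (ε' i)).exU t, ⟨_, t, Or.inl rfl⟩, Units.ext ((hx i t).trans c.symm)⟩
      · exact ⟨(dp_f (ε' i)).exU t, ⟨_, t, Or.inr rfl⟩, Units.ext ((hy i t).trans c.symm)⟩
  let χ := ψ.trans (((rx κ).subgroupMap _).trans (MulEquiv.subgroupCongr hm))
  have hp : ∀ (g : D.grp K) i t,
      (g.1.1 = D.x i t → (χ g).1.1 = 1 + t • (e (ε i)).map (Int.cast : ℤ → K)) ∧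
      (g.1.1 = D.y i t → (χ g).1.1 = 1 + t • (f (ε i)).map (Int.cast : ℤ → K)) := fun g i t =>
    ⟨fun c => (congrArg (submatrix · κ κ) ((h6 g i t).1 c)).trans (hx i t),
      fun c => (congrArg (submatrix · κ κ) ((h6 g i t).2 c)).trans (hy i t)⟩
  have b : ∀ (σ : K →+* K) (M : Matrix J J ℤ) (t : K), 1 + σ t • M.map (Int.cast : ℤ → K) =
      (1 + t • M.map (Int.cast : ℤ → K)).map σ := fun σ M t => by
    ext a b
    simp [one_apply, apply_ite σ]
  refine ⟨χ, ⟨fun i j => h7 (κ i) (κ j), fun i j => ?_, fun σ => gal_of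
    ((gen K e f).subtype.comp χ.toMonoidHom) (σ : K →+* K) fun i t => ⟨?_, ?_⟩⟩, hp⟩
  · obtain ⟨p, hp⟩ := h8 i j
    refine ⟨MvPolynomial.rename (Prod.map κ.symm κ.symm) p, fun g => ?_⟩
    rw [MvPolynomial.eval_rename]
    exact hp _
  · exact ((hp _ i _).1 (congrArg Units.val (GG_e i _))).trans ((b _ _ t).trans
      (congrArg (Matrix.map · σ) ((hp _ i t).1 (congrArg Units.val (GG_e i t))).symm))
  · exact ((hp _ i _).2 (congrArg Units.val (GG_f i _))).trans ((b _ _ t).trans
      (congrArg (Matrix.map · σ) ((hp _ i t).2 (congrArg Units.val (GG_f i t))).symm))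

theorem rec_of (h2 : P011UH.ISO) : REC := fun D hD _ _ _ _ _ _ _ _ _ _ ε hA h K _ _ =>
  rec_core ε hA h fun D' ε' h3 h4 => (h2 D D' ε' hD h3 h4 K).imp fun _ h => ⟨h.1, h.2 ‹_›⟩

theorem pin_of (h2 : P011U.ISO) {D : Chev} (hD : SC D) (D' : Chev) (ε : Fin D.r ≃ Fin D'.r)
    (h3 : SC D') (h4 : ∀ i j, D'.A (ε i) (ε j) = D.A i j) :
    ∃ ψ : D.grp K ≃* D'.grp K, Pin ε ψ ∧ Pol ψ ∧ Pol ψ.symm := by
  obtain ⟨ψ, a, b, c⟩ := h2 D D' ε hD h3 (fun i j => (h4 i j).symm) K
  refine ⟨ψ, fun g i t => ⟨fun e => ?_, fun e => ?_⟩, a, b⟩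
  · obtain rfl : g = (GG D K).x (D.α i) t := Subtype.ext ((Units.ext e).trans (GG_e i t).symm)
    exact (congrArg (·.1.1) (c i t).1).trans (congrArg Units.val (GG_e _ t))
  · obtain rfl : g = (GG D K).x (-D.α i) t := Subtype.ext ((Units.ext e).trans (GG_f i t).symm)
    exact (congrArg (·.1.1) (c i t).2).trans (congrArg Units.val (GG_f _ t))

theorem rec_of' (h2 : P011U.ISO) : REC := fun D hD _ _ _ _ _ _ _ _ _ _ ε hA h K _ _ =>
  rec_core ε hA h (pin_of h2 hD)

/-- the generators of the special linear Lie algebra -/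
theorem minA (n : ℕ) : Min (CartanMatrix.A n)
    (fun i => single i.castSucc i.succ 1) (fun i => single i.succ i.castSucc 1)
    fun i (a : Fin (n + 1)) => (if a = i.castSucc then 1 else 0) - if a = i.succ then 1 else 0 where
  ee i := single_mul_single_of_ne _ _ _ _ (Fin.castSucc_lt_succ).ne' _
  ff i := single_mul_single_of_ne _ _ _ _ (Fin.castSucc_lt_succ).ne _
  ef i := by
    ext a b
    simp only [single_mul_single_same, Matrix.sub_apply, single_apply, diagonal_apply]
    grind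
  ef' i j c := by
    rw [single_mul_single_of_ne _ _ _ _ (fun e => c (Fin.succ_injective _ e)),
      single_mul_single_of_ne _ _ _ _ fun e => c (Fin.castSucc_injective _ e).symm]
  he i a b c j := by
    obtain ⟨rfl, rfl⟩ : i.castSucc = a ∧ i.succ = b := by_contra fun e => c (if_neg e)
    simp only [CartanMatrix.A, of_apply, Fin.ext_iff, Fin.val_succ, Fin.val_castSucc]
    grind
  hf i a b c j := by
    obtain ⟨rfl, rfl⟩ : i.succ = a ∧ i.castSucc = b := by_contra fun e => c (if_neg e)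
    simp only [CartanMatrix.A, of_apply, Fin.ext_iff, Fin.val_succ, Fin.val_castSucc]
    grind
  sc := by
    refine eq_top_iff.2 ((Pi.basisFun ℤ (Fin n)).span_eq.ge.trans (Submodule.span_le.2 ?_))
    rintro _ ⟨j, rfl⟩
    have : Pi.basisFun ℤ (Fin n) j = ∑ a ∈ Finset.Iic j.castSucc, fun i : Fin n =>
        ((if a = i.castSucc then 1 else 0) - if a = i.succ then 1 else 0 : ℤ) := by
      funext i
      simp only [Pi.basisFun_apply, Pi.single_apply, Finset.sum_apply, Finset.sum_sub_distrib,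
        Finset.sum_ite_eq', Finset.mem_Iic]
      simp only [Fin.le_def, Fin.ext_iff, Fin.val_succ, Fin.val_castSucc]
      grind
    rw [this]
    exact sum_mem fun a _ => Submodule.subset_span ⟨a, rfl⟩

open SpecialLinearGroup hiding transvection in
theorem genA (n : ℕ) (hn : 0 < n) : gen K (fun i : Fin n => single i.castSucc i.succ (1 : ℤ))
    (fun i => single i.succ i.castSucc 1) = SA K (n + 1) := by
  have a : ∀ (i j : Fin (n + 1)) (t : K), 1 + t • (single i j (1 : ℤ)).map (Int.cast : ℤ → K) =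
      1 + single i j t := fun i j t => by
    ext a b
    simp [single_apply]
  refine le_antisymm ((Subgroup.closure_le _).2 ?_) fun g hg => ?_
  · rintro g ⟨i, t, c | c⟩
    · exact Units.ext ((congrArg det (c.trans (a _ _ t))).trans
        (det_transvection_of_ne _ _ (Fin.castSucc_lt_succ).ne t))
    · exact Units.ext ((congrArg det (c.trans (a _ _ t))).trans
        (det_transvection_of_ne _ _ (Fin.castSucc_lt_succ).ne' t))
  let H := (gen K (fun i : Fin n => single i.castSucc i.succ (1 : ℤ))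
    (fun i => single i.succ i.castSucc 1)).comap (toGL : SpecialLinearGroup (Fin (n + 1)) K →* _)
  have h1 : ∀ {i j k : Fin (n + 1)} (a : i ≠ j) (b : j ≠ k) (c : i ≠ k),
      (∀ t, SpecialLinearGroup.transvection a t ∈ H) →
      (∀ t, SpecialLinearGroup.transvection b t ∈ H) →
      ∀ t, SpecialLinearGroup.transvection c t ∈ H := fun a b c ha hb t => by
    have := P011LA.tv_comm a b c t 1
    rw [mul_one, ← mul_inv_eq_iff_eq_mul] at this
    exact this ▸ mul_mem (mul_mem (ha _) (hb _)) (inv_mem (mul_mem (hb _) (ha _)))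
  have h2 : ∀ (d : ℕ) (i j : Fin (n + 1)) (c : i ≠ j), j.1 = i.1 + (d + 1) →
      (∀ t, SpecialLinearGroup.transvection c t ∈ H) ∧
        ∀ t, SpecialLinearGroup.transvection c.symm t ∈ H := fun d => by
    induction d using Nat.strong_induction_on with
    | _ d ih =>
    intro i j c e
    obtain _ | d := d
    · obtain ⟨i, rfl⟩ := Fin.exists_castSucc_eq.2 (show i ≠ Fin.last n from fun e' => by
        have := j.2; rw [e', Fin.val_last] at e; omega)
      obtain rfl : j = i.succ := Fin.ext e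
      exact ⟨fun t => Subgroup.subset_closure ⟨i, t, Or.inl (a _ _ t).symm⟩,
        fun t => Subgroup.subset_closure ⟨i, t, Or.inr (a _ _ t).symm⟩⟩
    · let m : Fin (n + 1) := ⟨i.1 + 1, by omega⟩
      have c1 : i ≠ m := fun e' => by have := congrArg Fin.val e'; simp [m] at this
      have c2 : m ≠ j := fun e' => by have := congrArg Fin.val e'; simp only [m] at this; omega
      have h3 := ih 0 (by omega) i m c1 rfl
      have h4 := ih d (by omega) m j c2 (by simp only [m]; omega)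
      exact ⟨h1 c1 c2 c h3.1 h4.1, h1 c2.symm c1.symm c.symm h4.2 h3.2⟩
  have h3 : ∀ (i j : Fin (n + 1)) (c : i ≠ j) t,
      SpecialLinearGroup.transvection c t ∈ H := fun i j c => by
    rcases lt_or_gt_of_ne c with e | e
    · exact (h2 (j.1 - i.1 - 1) i j c (by have : i.1 < j.1 := e; omega)).1
    · exact (h2 (i.1 - j.1 - 1) j i c.symm (by have : j.1 < i.1 := e; omega)).2
  have : Nontrivial (Fin (n + 1)) := Fin.nontrivial_iff_two_le.2 (by omega)
  have h4 := diagonal_transvection_induction' (· ∈ H) ⟨g.1, congrArg Units.val hg⟩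
    (fun i j c x hx => by
      rw [P011LA.diag_eq c hx]
      exact mul_mem (mul_mem (mul_mem (h3 _ _ _ _) (h3 _ _ _ _)) (h3 _ _ _ _))
        (mul_mem (mul_mem (h3 _ _ _ _) (h3 _ _ _ _)) (h3 _ _ _ _))) h3 fun _ _ => mul_mem
  exact (Units.ext rfl : toGL ⟨g.1, congrArg Units.val hg⟩ = g) ▸ h4

theorem ra_of (h : REC) : RA := by
  rintro D hD n ⟨ε, hε⟩ K _ _
  rw [← genA n (ε ⟨0, (R_ok D).pos⟩).pos]
  exact (h D hD _ _ _ _ _ _ ε hε (minA n) K).imp fun _ h => h.1

theorem isa_of (h : P011U.ISO) : ISA := by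
  intro D hD n ε hε K _
  have a : ∀ (i j : Fin (n + 1)) (t : K), 1 + t • (single i j (1 : ℤ)).map (Int.cast : ℤ → K) =
      1 + single i j t := fun i j t => by
    ext a b
    simp [single_apply]
  rw [← genA n (ε ⟨0, (R_ok D).pos⟩).pos]
  obtain ⟨ψ, h1, h2⟩ := rec_core (K := K) ε (fun i j => (hε i j).symm) (minA n) (pin_of h hD)
  exact ⟨ψ, h1.pol, h1.pol', fun i u =>
    ⟨((h2 _ i u).1 (congrArg Units.val (GG_e i u))).trans (a _ _ u),
      ((h2 _ i u).2 (congrArg Units.val (GG_f i u))).trans (a _ _ u)⟩⟩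

theorem a0 : A0 := fun _ _ _ => GG_ok

theorem cl0 : CL0 := fun _ h _ _ _ _ f _ M e => h.desc f (e ▸ rat_map f M)

end Vale.Agent.P011UJ
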