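import Vale.Agent.P011UH.IF

/-!
Chevalley data from minuscule generators.
-/

set_option autoImplicit false
set_option linter.all false

namespace Vale.Agent.P011UJ

open Matrix Vale.Agent.P183CH Vale.Agent.P183CH.Chev Vale.Agent.P011U Vale.Agent.P011UH
  LieSubalgebra Set

attribute [local instance 100] LieRing.ofAssociativeRing

variable {D : Chev} {n : ℕ} {e f : Fin D.r → Matrix (Fin n) (Fin n) ℤ} {μ : Fin D.r → Fin n → ℤ}
  {γ δ : D.Q} {M N : Matrix (Fin n) (Fin n) ℂ}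

variable (e f) in
/-- the Lie algebra -/
def LL : LieSubalgebra ℂ (Matrix (Fin n) (Fin n) ℂ) :=
  lieSpan ℂ _ (range (fun i => ct ℂ (e i)) ∪ range fun i => ct ℂ (f i))

variable (e f) in
/-- the generators -/
def eL (i : Fin D.r) : LL e f := ⟨ct ℂ (e i), subset_lieSpan (Or.inl ⟨i, rfl⟩)⟩

variable (e f) in
/-- the generators -/
def fL (i : Fin D.r) : LL e f := ⟨ct ℂ (f i), subset_lieSpan (Or.inr ⟨i, rfl⟩)⟩

variable (μ) in
/-- matrices of degree `γ` -/
def Dm (γ : D.Q) : Submodule ℂ (Matrix (Fin n) (Fin n) ℂ) :=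
  Sp ℂ fun a b => (fun i => μ i a) = (fun i => μ i b) + γ ᵥ* D.A

variable (μ) in
/-- the height -/
noncomputable def hw (a : Fin n) : ℤ := D.R.wht fun i => μ i a

theorem hw_eq {a b : Fin n} (c : (fun i => μ i a) = (fun i => μ i b) + γ ᵥ* D.A) :
    hw μ a = hw μ b + D.A.det ^ 2 * ∑ i, γ i :=
  (congrArg D.R.wht c).trans ((D.R.wht_add _ _).trans (congrArg _ (D.R.wht_pr γ)))

theorem Dm.lie (h : M ∈ Dm μ γ) (h' : N ∈ Dm μ δ) : ⁅M, N⁆ ∈ Dm μ (γ + δ) :=
  sub_mem (Sp.mul h h' fun a b c e e' => by rw [e, e', add_vecMul]; abel)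
    (Sp.mul h' h fun a b c e e' => by rw [e, e', add_vecMul]; abel)

theorem lie_diag (d : Fin n → ℂ) (M : Matrix (Fin n) (Fin n) ℂ) (a b : Fin n) :
    ⁅diagonal d, M⁆ a b = (d a - d b) * M a b := by
  rw [Ring.lie_def, Matrix.sub_apply, diagonal_mul, mul_diagonal]
  ring

theorem Dm.eig (h : M ∈ Dm μ γ) (j : Fin D.r) :
    ⁅diagonal fun a => (μ j a : ℂ), M⁆ = (((γ ᵥ* D.A) j : ℤ) : ℂ) • M := by
  ext a b
  rw [lie_diag, Matrix.smul_apply, smul_eq_mul]
  by_cases c : M a b = 0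
  · rw [c, mul_zero, mul_zero]
  · rw [show μ j a = μ j b + (γ ᵥ* D.A) j from congrFun (h a b c) j]
    push_cast
    ring

theorem graded {W : Submodule ℂ (Matrix (Fin n) (Fin n) ℂ)}
    (hW : ∀ j, ∀ M ∈ W, ⁅diagonal fun a => (μ j a : ℂ), M⁆ ∈ W) (h : M ∈ W) (γ : D.Q) :
    ∃ N ∈ W, N ∈ Dm μ γ ∧
      ∀ a b, (fun i => μ i a) = (fun i => μ i b) + γ ᵥ* D.A → N a b = M a b := by
  classical
  have : ∀ s : Finset (Fin n × Fin n), ∃ N ∈ W, (∀ p ∈ s, N p.1 p.2 ≠ 0 →
      (fun i => μ i p.1) = (fun i => μ i p.2) + γ ᵥ* D.A) ∧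
      ∀ a b, (fun i => μ i a) = (fun i => μ i b) + γ ᵥ* D.A → N a b = M a b := fun s => by
    induction s using Finset.induction with
    | empty => exact ⟨M, h, by simp, fun _ _ _ => rfl⟩
    | insert p s _ ih =>
      obtain ⟨N, h1, h2, h3⟩ := ih
      by_cases c : (fun i => μ i p.1) = (fun i => μ i p.2) + γ ᵥ* D.A
      · exact ⟨N, h1, Finset.forall_mem_insert .. |>.2 ⟨fun _ => c, h2⟩, h3⟩
      obtain ⟨j, hj⟩ := Function.ne_iff.1 c
      let z : ℂ := μ j p.1 - μ j p.2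
      have hz : (((γ ᵥ* D.A) j : ℤ) : ℂ) - z ≠ 0 := fun e => hj (by
        have : (((γ ᵥ* D.A) j - (μ j p.1 - μ j p.2) : ℤ) : ℂ) = 0 := by push_cast; exact e
        have := Int.cast_eq_zero.1 this
        show μ j p.1 = μ j p.2 + (γ ᵥ* D.A) j
        omega)
      have e : ∀ a b, (((((γ ᵥ* D.A) j : ℤ) : ℂ) - z)⁻¹ •
          (⁅diagonal fun a => (μ j a : ℂ), N⁆ - z • N)) a b =
          ((((γ ᵥ* D.A) j : ℤ) : ℂ) - z)⁻¹ * ((μ j a - μ j b - z) * N a b) := fun a b => by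
        rw [Matrix.smul_apply, Matrix.sub_apply, lie_diag, Matrix.smul_apply, smul_eq_mul,
          smul_eq_mul]
        ring
      refine ⟨_, W.smul_mem ((((γ ᵥ* D.A) j : ℤ) : ℂ) - z)⁻¹ (sub_mem (hW j N h1) (W.smul_mem z h1)),
        Finset.forall_mem_insert .. |>.2 ⟨fun c => absurd ?_ c, fun q hq c => h2 q hq fun c' => c ?_⟩,
        fun a b c => ?_⟩
      · rw [e, sub_self, zero_mul, mul_zero]
      · rw [e, c', mul_zero, mul_zero]
      · rw [e, h3 a b c, show μ j a = μ j b + (γ ᵥ* D.A) j from congrFun c j, Int.cast_add,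
          add_sub_cancel_left, inv_mul_cancel_left₀ hz]
  obtain ⟨N, h1, h2, h3⟩ := this Finset.univ
  exact ⟨N, h1, fun a b => h2 (a, b) (Finset.mem_univ _), h3⟩

section
variable (h : Min D.A e f μ)
include h

theorem dm_e (i : Fin D.r) : (eL e f i).1 ∈ Dm μ (D.α i) :=
  Sp.map _ fun a b c => funext fun j => by rw [Pi.add_apply, α_pr]; exact h.he i a b c j

theorem dm_f (i : Fin D.r) : (fL e f i).1 ∈ Dm μ (-D.α i) :=
  Sp.map _ fun a b c => funext fun j => by
    rw [Pi.add_apply, neg_vecMul, Pi.neg_apply, α_pr]; exact h.hf i a b c j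

theorem h_val (i : Fin D.r) : (⁅eL e f i, fL e f i⁆ : LL e f).1 = diagonal fun a => (μ i a : ℂ) := by
  show ct ℂ (e i) * ct ℂ (f i) - ct ℂ (f i) * ct ℂ (e i) = _
  rw [← map_mul, ← map_mul, ← map_sub, h.ef, RingHom.mapMatrix_apply, diagonal_map (map_zero _)]
  rfl

theorem lie_h {x : LL e f} (hx : x.1 ∈ Dm μ γ) (j : Fin D.r) :
    ⁅(⁅eL e f j, fL e f j⁆ : LL e f), x⁆ = (γ ᵥ* D.A) j • x := Subtype.ext (by
  rw [coe_bracket, h_val h, Dm.eig hx, Int.cast_smul_eq_zsmul]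
  rfl)

theorem lin : LinearIndependent ℂ fun i => (⁅eL e f i, fL e f i⁆ : LL e f) := by
  refine Fintype.linearIndependent_iff.2 fun c hc j => ?_
  obtain ⟨d, hd⟩ := (Submodule.mem_span_range_iff_exists_fun ℤ).1
    (show (Pi.single j 1 : Fin D.r → ℤ) ∈ _ from h.sc ▸ Submodule.mem_top)
  have h1 : ∀ a, ∑ i, c i * μ i a = 0 := fun a => by
    have := congrFun (congrFun (congrArg Subtype.val hc) a) a
    simpa [Matrix.sum_apply, h_val h, -coe_bracket] using this
  have h2 : ∀ i, ∑ a, (d a : ℂ) * μ i a = if i = j then 1 else 0 := fun i => by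
    have := congrArg (Int.cast : ℤ → ℂ) (congrFun hd i)
    simpa [Pi.single_apply] using this
  have : ∑ a, (d a : ℂ) * ∑ i, c i * μ i a = ∑ i, c i * ∑ a, (d a : ℂ) * μ i a := by
    simp only [Finset.mul_sum]
    rw [Finset.sum_comm]
    exact Finset.sum_congr rfl fun _ _ => Finset.sum_congr rfl fun _ _ => by ring
  simpa [h1, h2] using this.symm

/-- the basis -/
noncomputable def bas : LieAlgebra.Basis (Fin D.r)
    (lieSpan ℂ (LL e f) (range fun i => ⁅eL e f i, fL e f i⁆)) where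
  A := D.A
  h i := ⁅eL e f i, fL e f i⁆
  e := eL e f
  f := fL e f
  cartan_eq_lieSpan := rfl
  span_ef := by
    refine Eq.trans (congrArg _ (Set.ext fun x => ?_)) lieSpan_lieSpan_coe_preimage
    exact or_congr (exists_congr fun _ => Subtype.ext_iff) (exists_congr fun _ => Subtype.ext_iff)
  linInd := lin h
  nondegen := D.b.nondegen
  sl2 i := ⟨(lin h).ne_zero i, rfl,
    by rw [lie_h h (dm_e h i), α_pr, Chev.diag]; exact ofNat_zsmul _ _,
    by rw [lie_h h (dm_f h i), neg_vecMul, Pi.neg_apply, α_pr, Chev.diag, neg_smul]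
       exact congrArg _ (ofNat_zsmul _ _)⟩
  lie_h_h i j := by
    rw [lie_h h (γ := D.α j + -D.α j) (Dm.lie (dm_e h j) (dm_f h j))]
    simp
  lie_h_e i j := by rw [lie_h h (dm_e h i), α_pr]
  lie_h_f i j := by rw [lie_h h (dm_f h i), neg_vecMul, Pi.neg_apply, α_pr]
  lie_e_f_ne i j c := Subtype.ext (by
    show ct ℂ (e i) * ct ℂ (f j) - ct ℂ (f j) * ct ℂ (e i) = 0
    rw [← map_mul, ← map_mul, h.ef' i j c, sub_self])

omit h in
theorem half (s : ℤ) (hs : s * s = 1) {v : Fin D.r → LL e f}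
    (hv : ∀ i, (v i).1 ∈ Dm μ (s • D.α i)) {y : LL e f} (hy : y ∈ lieSpan ℂ _ (range v)) :
    y.1 ∈ Sp ℂ fun a b => s * hw μ b + 1 ≤ s * hw μ a := by
  induction hy using lieSpan_induction with
  | mem u hu =>
    obtain ⟨i, rfl⟩ := hu
    refine Sp.mono (hv i) fun a b c => ?_
    have h2 : 0 < D.A.det ^ 2 := sq_pos_of_ne_zero det_ne
    have h3 : ∑ j, (s • D.α i) j = s := by simp [α, Pi.single_apply]
    rw [hw_eq c, h3, mul_add, mul_left_comm, hs]
    omega
  | zero => exact zero_mem _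
  | add u v _ _ hu hv => exact add_mem hu hv
  | smul t u _ hu => exact Submodule.smul_mem _ t hu
  | lie u w _ _ hu hw =>
    exact sub_mem (Sp.mul hu hw fun a b c e e' => by omega) (Sp.mul hw hu fun a b c e e' => by omega)

theorem deg_zero {x : LL e f} (hx : x.1 ∈ Dm μ 0) :
    ∃ c : Fin D.r → ℂ, ∑ i, c i • ⁅eL e f i, fL e f i⁆ = x := by
  have h1 := (bas h).iSup_cartan_borelLower_borelUpper_eq_top
  obtain ⟨yc, hyc, yl, hyl, yu, hyu, rfl⟩ :
      ∃ᵉ (yc ∈ lieSpan ℂ (LL e f) (range fun i => ⁅eL e f i, fL e f i⁆))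
        (yl ∈ lieSpan ℂ (LL e f) (range (bas h).f)) (yu ∈ lieSpan ℂ (LL e f) (range (bas h).e)),
        yc + yl + yu = x := by
    have : x ∈ (lieSpan ℂ (LL e f) (range fun i => ⁅eL e f i, fL e f i⁆)).toLieSubmodule ⊔
        (bas h).borelLower ⊔ (bas h).borelUpper := by
      rw [show _ ⊔ (bas h).borelLower ⊔ (bas h).borelUpper = ⊤ by simpa using h1]
      trivial
    obtain ⟨_, h1, yu, hu, rfl⟩ := (LieSubmodule.mem_sup _ _ _).1 this
    obtain ⟨yc, hc, yl, hl, rfl⟩ := (LieSubmodule.mem_sup _ _ _).1 h1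
    exact ⟨yc, hc, yl, hl, yu, hu, rfl⟩
  rw [← mem_toSubmodule, (bas h).coe_cartan_eq_span] at hyc
  have h2 : yc.1 ∈ Dm μ 0 := by
    refine (Submodule.span_le (p := (Dm μ 0).comap (LL e f).toSubmodule.subtype)).2 ?_ hyc
    rintro _ ⟨i, rfl⟩
    exact add_neg_cancel (D.α i) ▸ Dm.lie (dm_e h i) (dm_f h i)
  have h3 := half (μ := μ) (-1) rfl (fun i => by rw [neg_one_smul]; exact dm_f h i) hyl
  have h4 := half (μ := μ) 1 rfl (fun i => by rw [one_smul]; exact dm_e h i) hyu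
  have h5 : yl + yu = 0 := Subtype.ext (Matrix.ext fun a b => by
    by_contra c
    have h6 : (yl + yu).1 ∈ Dm μ 0 := by
      rw [show yl + yu = yc + yl + yu - yc by abel]
      exact sub_mem hx h2
    have h7 := hw_eq (h6 a b c)
    simp only [Pi.zero_apply, Finset.sum_const_zero, mul_zero, add_zero] at h7
    refine c ?_
    show yl.1 a b + yu.1 a b = 0
    rw [not_not.1 (mt (h3 a b) (by omega)), not_not.1 (mt (h4 a b) (by omega)), add_zero])
  rw [add_assoc, h5, add_zero]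
  exact (Submodule.mem_span_range_iff_exists_fun ℂ).1 hyc

theorem exists_e_mem (I : LieIdeal ℂ (LL e f)) (m : ℕ) : ∀ γ : D.Q, ∑ i, (γ i).natAbs = m →
    ∀ x ∈ I, x ≠ 0 → x.1 ∈ Dm μ γ → ∃ i, eL e f i ∈ I := by
  induction m using Nat.strong_induction_on with
  | _ m ih =>
  intro γ hm x hx h0 hd
  rcases eq_or_ne γ 0 with rfl | hγ
  · obtain ⟨c, rfl⟩ := deg_zero h hd
    by_contra hn
    have : (Int.castRingHom ℂ).mapMatrix D.A *ᵥ c = 0 := funext fun i => by
      by_contra c'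
      refine hn ⟨i, (I.toSubmodule.smul_mem_iff c').1 ?_⟩
      have := lie_mem_left ℂ _ I _ (eL e f i) hx
      rw [sum_lie] at this
      simp only [smul_lie, lie_h h (dm_e h i), α_pr, ← Int.cast_smul_eq_zsmul ℂ, smul_smul,
        ← Finset.sum_smul, mul_comm (c _)] at this
      exact this
    rw [eq_zero_of_mulVec_eq_zero (by
      rw [← RingHom.map_det]; exact Int.cast_ne_zero.2 det_ne) this] at h0
    simp at h0
  obtain ⟨i, hi⟩ := exists_pos hγ
  have lt : ∀ s : ℤ, (s + γ i).natAbs < (γ i).natAbs →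
      ∑ j, ((s • D.α i + γ) j).natAbs < m := fun s hs => hm ▸ Finset.sum_lt_sum (fun j _ => by
      rcases eq_or_ne j i with rfl | c
      · simpa [α] using hs.le
      · simp [α, c]) ⟨i, Finset.mem_univ _, by simpa [α] using hs⟩
  have hh := lie_h h hd i
  rw [← Int.cast_smul_eq_zsmul ℂ] at hh
  rcases pos_and_pos_or_neg_and_neg_of_mul_pos hi with ⟨h1, h2⟩ | ⟨h1, h2⟩
  · by_cases c : ⁅fL e f i, x⁆ = 0
    · obtain ⟨k, hk⟩ := (⟨h0, by rw [neg_lie, neg_smul]; exact congrArg _ hh, c⟩ :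
        ((bas h).sl2 i).symm.HasPrimitiveVectorWith x (-(((γ ᵥ* D.A) i : ℤ) : ℂ))).exists_nat
      have : -(γ ᵥ* D.A) i = k := by exact_mod_cast hk
      omega
    · exact ih _ (lt (-1) (by omega)) _ rfl _ (I.lie_mem hx) c
        (by rw [neg_one_smul]; exact Dm.lie (dm_f h i) hd)
  · by_cases c : ⁅eL e f i, x⁆ = 0
    · obtain ⟨k, hk⟩ := (⟨h0, hh, c⟩ :
        ((bas h).sl2 i).HasPrimitiveVectorWith x (((γ ᵥ* D.A) i : ℤ) : ℂ)).exists_nat
      have : (γ ᵥ* D.A) i = k := by exact_mod_cast hk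
      omega
    · exact ih _ (lt 1 (by omega)) _ rfl _ (I.lie_mem hx) c
        (by rw [one_smul]; exact Dm.lie (dm_e h i) hd)

theorem supp (x : LL e f) :
    x.1 ∈ Sp ℂ fun a b => ∃ γ : D.Q, (fun i => μ i a) = (fun i => μ i b) + γ ᵥ* D.A := by
  obtain ⟨x, hx⟩ := x
  have m : ∀ a b c : Fin n, (∃ γ : D.Q, (fun i => μ i a) = (fun i => μ i b) + γ ᵥ* D.A) →
      (∃ γ : D.Q, (fun i => μ i b) = (fun i => μ i c) + γ ᵥ* D.A) →
      ∃ γ : D.Q, (fun i => μ i a) = (fun i => μ i c) + γ ᵥ* D.A :=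
    fun a b c ⟨γ, e⟩ ⟨δ, e'⟩ => ⟨δ + γ, by rw [e, e', add_vecMul, add_assoc]⟩
  induction hx using lieSpan_induction with
  | mem u hu =>
    obtain ⟨i, rfl⟩ | ⟨i, rfl⟩ := hu
    exacts [Sp.mono (dm_e h i) fun _ _ c => ⟨_, c⟩, Sp.mono (dm_f h i) fun _ _ c => ⟨_, c⟩]
  | zero => exact zero_mem _
  | add u v _ _ hu hv => exact add_mem hu hv
  | smul t u _ hu => exact Submodule.smul_mem _ t hu
  | lie u w _ _ hu hw => exact sub_mem (Sp.mul hu hw m) (Sp.mul hw hu m)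

theorem simple : LieAlgebra.IsSimple ℂ (LL e f) where
  eq_bot_or_eq_top I := or_iff_not_imp_left.2 fun hI => by
    obtain ⟨x, hx, h0⟩ := (LieSubmodule.eq_bot_iff I).not.1 hI |> fun c => by
      push Not at c; exact c
    obtain ⟨a, b, hab⟩ : ∃ a b, x.1 a b ≠ 0 := by
      by_contra c
      push Not at c
      exact h0 (Subtype.ext (Matrix.ext c))
    obtain ⟨γ, hγ⟩ := supp h x a b hab
    obtain ⟨_, ⟨y, hy, rfl⟩, h1, h2⟩ := graded (μ := μ)
      (W := I.toSubmodule.map (LL e f).toSubmodule.subtype) (by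
        rintro j _ ⟨y, hy, rfl⟩
        exact ⟨_, I.lie_mem (x := ⁅eL e f j, fL e f j⁆) hy, by rw [← h_val h]; rfl⟩) ⟨x, hx, rfl⟩ γ
    obtain ⟨i, hi⟩ := exists_e_mem h I _ γ rfl y hy
      (fun c => hab ((h2 a b hγ).symm.trans (by rw [c]; rfl))) h1
    have h3 : ∀ j, eL e f j ∈ I := fun j => conn (fun j => eL e f j ∈ I) i j hi fun i j hi c => by
      have := lie_mem_left ℂ _ I _ (eL e f j) (lie_mem_left ℂ _ I _ (fL e f i) hi)
      rw [lie_h h (dm_e h j), α_pr, ← Int.cast_smul_eq_zsmul ℂ] at this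
      exact (I.toSubmodule.smul_mem_iff (Int.cast_ne_zero.2 c)).1 this
    have h4 : ∀ j, fL e f j ∈ I := fun j => by
      have := lie_mem_left ℂ _ I _ (fL e f j) (lie_mem_left ℂ _ I _ (fL e f j) (h3 j))
      rw [lie_h h (dm_f h j), neg_vecMul, Pi.neg_apply, α_pr, Chev.diag,
        ← Int.cast_smul_eq_zsmul ℂ] at this
      exact (I.toSubmodule.smul_mem_iff (by norm_num)).1 this
    refine eq_top_iff.2 fun z _ => (lieSpan_le (K := (I : LieSubalgebra ℂ (LL e f)))).2 ?_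
      ((bas h).span_ef.ge (mem_top z))
    rintro _ (⟨j, rfl⟩ | ⟨j, rfl⟩)
    exacts [h3 j, h4 j]
  non_abelian c := ((bas h).sl2 ⟨0, (R_ok D).pos⟩).h_ne_zero (c.trivial _ _)

omit h in
theorem pow_eq {x : Matrix (Fin n) (Fin n) ℤ} (hx : x * x = 0) (m : ℕ) : ct ℂ x ^ m =
    m.factorial • (if m = 0 then 1 else if m = 1 then x else 0).map (Int.cast : ℤ → ℂ) := by
  obtain _ | _ | m := m
  · simp
  · simp
  · rw [if_neg (by omega), if_neg (by omega), pow_succ, pow_succ, mul_assoc, ← map_mul, hx]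
    simp

/-- the datum -/
noncomputable def dat : Chev where
  n := n
  r := D.r
  L := LL e f
  simple := simple h
  H := _
  b := bas h
  φ := (LL e f).toSubmodule.subtype
  inj := Subtype.val_injective
  lie _ _ := rfl
  μ := μ
  E i m := if m = 0 then 1 else if m = 1 then e i else 0
  F i m := if m = 0 then 1 else if m = 1 then f i else 0
  h_eq := h_val h
  e_pow i := pow_eq (h.ee i)
  f_pow i := pow_eq (h.ff i)

end

theorem ex_two {K : Type} [Field K] {x : Matrix (Fin n) (Fin n) ℤ}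
    (h : DP fun m => if m = 0 then 1 else if m = 1 then x else 0) (t : K) :
    ex (fun m => if m = 0 then 1 else if m = 1 then x else 0) t =
      1 + t • x.map (Int.cast : ℤ → K) := by
  have := h.sub_mem ⊥ 2 t fun m hm => by
    rw [if_neg (by omega), if_neg (by omega)]
    simp
  rw [Submodule.mem_bot, sub_eq_zero] at this
  rw [this]
  simp [Finset.sum_range_succ]

theorem mk : MK := fun D n e f μ h =>
  ⟨dat h, Equiv.refl _, Equiv.refl _, h.sc, fun _ _ => rfl, fun K _ i t =>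
    ⟨ex_two (dp_e (D := dat h) i) t, ex_two (dp_f (D := dat h) i) t⟩⟩

end Vale.Agent.P011UJ
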